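import Vale.Agent.P011.H505.WangE

/-!
Wang's theorem near one: the frame.  `k` is a topological field, every finite dimensional
`k`-algebra carries the module topology, `nb k A` is the filter of the neighbourhoods of one.
-/

set_option linter.unusedSectionVars false

open Module Filter Topology TensorProduct

namespace Vale.Agent.P011.H677.GW

open Vale.Agent.P011.W (HasNrd)

/-- The neighbourhoods of one in a finite dimensional algebra with the module topology. -/
def nb (k : Type) [Field k] [TopologicalSpace k] (A : Type) [Ring A] [Algebra k A] : Filter A :=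
  @nhds A (moduleTopology k A) 1

section nb

variable (k : Type) [Field k] [TopologicalSpace k] [IsTopologicalRing k]
variable {A B : Type} [Ring A] [Algebra k A] [Ring B] [Algebra k B]

theorem nb_lin (φ : A →ₗ[k] B) (h : φ 1 = 1) : Tendsto φ (nb k A) (nb k B) := by
  let tA : TopologicalSpace A := moduleTopology k A
  let tB : TopologicalSpace B := moduleTopology k B
  have hA : IsModuleTopology k A := ⟨rfl⟩
  have hB : IsModuleTopology k B := ⟨rfl⟩
  have : ContinuousAdd B := IsModuleTopology.toContinuousAdd k B
  have h1 := (IsModuleTopology.continuous_of_linearMap φ).tendsto 1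
  rw [h] at h1
  exact h1

theorem nb_alg (φ : A →ₐ[k] B) : Tendsto φ (nb k A) (nb k B) :=
  nb_lin k φ.toLinearMap (map_one φ)

theorem nb_conj {g g' : A} (h : g * g' = 1) : Tendsto (fun x => g * x * g') (nb k A) (nb k A) := by
  have h1 := nb_lin k ((LinearMap.mulRight k g').comp (LinearMap.mulLeft k g)) (by
    simp [h])
  exact h1

theorem nb_mul [FiniteDimensional k A] :
    Tendsto (fun p : A × A => p.1 * p.2) (nb k A ×ˢ nb k A) (nb k A) := by
  let tA : TopologicalSpace A := moduleTopology k A
  have hA : IsModuleTopology k A := ⟨rfl⟩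
  have h1 := (IsModuleTopology.continuous_mul_of_finite k A).tendsto ((1, 1) : A × A)
  rw [nhds_prod_eq, mul_one] at h1
  exact h1

theorem pure_le_nb : pure (1 : A) ≤ nb k A := @pure_le_nhds A (moduleTopology k A) 1

instance nb_neBot : (nb k A).NeBot := NeBot.mono (by infer_instance) (pure_le_nb k (A := A))

theorem one_mem {V : Set A} (hV : V ∈ nb k A) : (1 : A) ∈ V := pure_le_nb k hV

/-- Neighbourhoods of one in a subspace. -/
theorem nb_comap (ι : A →ₗ[k] B) (h : ι 1 = 1) (hinj : Function.Injective ι) {V : Set A}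
    (hV : V ∈ nb k A) : ∃ W ∈ nb k B, ∀ x, ι x ∈ W → x ∈ V := by
  obtain ⟨π, hπ⟩ := ι.exists_leftInverse_of_injective (LinearMap.ker_eq_bot.mpr hinj)
  have h1 : ∀ x, π (ι x) = x := fun x => LinearMap.congr_fun hπ x
  have h2 := nb_lin k π (by rw [← h, h1])
  refine ⟨π ⁻¹' V, h2 hV, fun x hx => ?_⟩
  have h3 : π (ι x) ∈ V := hx
  rwa [h1] at h3

end nb

section field

variable (k : Type) [Field k] [TopologicalSpace k] [IsTopologicalDivisionRing k] [T2Space k]

/-- The determinant is continuous near the identity. -/
theorem nb_det {A : Type} [Ring A] [Algebra k A] {n : ℕ} (f : A → Matrix (Fin n) (Fin n) k)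
    (hf : ∀ i j, ∃ l : A →ₗ[k] k, ∀ x, f x i j = l x) (h1 : f 1 = 1) :
    Tendsto (fun x => (f x).det) (nb k A) (𝓝 (1 : k)) := by
  let tA : TopologicalSpace A := moduleTopology k A
  have hA : IsModuleTopology k A := ⟨rfl⟩
  have hc : Continuous f := by
    refine continuous_matrix fun i j => ?_
    obtain ⟨l, hl⟩ := hf i j
    have h2 : (fun x => f x i j) = l := funext hl
    rw [h2]
    exact IsModuleTopology.continuous_of_linearMap l
  have h2 := (hc.matrix_det).tendsto 1
  rw [h1, Matrix.det_one] at h2
  exact h2

/-- The module topology of the base field. -/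
theorem nb_self : nb k k = 𝓝 (1 : k) := by
  have h1 : IsModuleTopology k k := inferInstance
  unfold nb
  rw [← h1.eq_moduleTopology']

/-- The norm to the base field. -/
theorem nb_norm_base {A : Type} [Ring A] [Algebra k A] [FiniteDimensional k A] :
    Tendsto (Algebra.norm k : A → k) (nb k A) (nb k k) := by
  rw [nb_self]
  let b := finBasis k A
  have h1 := nb_det k (A := A) (fun x => Algebra.leftMulMatrix b x) (by
    intro i j
    refine ⟨(Matrix.entryLinearMap k k i j).comp (Algebra.leftMulMatrix b).toLinearMap,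
      fun x => rfl⟩) (map_one _)
  have h2 : (Algebra.norm k : A → k) = fun x => (Algebra.leftMulMatrix b x).det :=
    funext fun x => Algebra.norm_eq_matrix_det b x
  rw [h2]
  exact h1

/-- The norm of a finite algebra over a finite extension. -/
theorem nb_norm {Z A : Type} [Field Z] [Algebra k Z] [FiniteDimensional k Z] [Ring A]
    [Algebra k A] [Algebra Z A] [IsScalarTower k Z A] [FiniteDimensional Z A] :
    Tendsto (Algebra.norm Z : A → Z) (nb k A) (nb k Z) := by
  let tA : TopologicalSpace A := moduleTopology k A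
  have hA : IsModuleTopology k A := ⟨rfl⟩
  let tZ : TopologicalSpace Z := moduleTopology k Z
  have hZ : IsModuleTopology k Z := ⟨rfl⟩
  have hZr : IsTopologicalRing Z := IsModuleTopology.isTopologicalRing k Z
  let b := finBasis Z A
  have hc : Continuous fun x : A => Algebra.leftMulMatrix b x := by
    refine continuous_matrix fun i j => ?_
    exact IsModuleTopology.continuous_of_linearMap
      (((Matrix.entryLinearMap Z Z i j).comp
        (Algebra.leftMulMatrix b).toLinearMap).restrictScalars k)
  have h2 := (hc.matrix_det).tendsto 1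
  have h3 : (Algebra.norm Z : A → Z) = fun x => (Algebra.leftMulMatrix b x).det :=
    funext fun x => Algebra.norm_eq_matrix_det b x
  rw [map_one, Matrix.det_one] at h2
  rw [h3]
  exact h2

/-- The inverse is continuous at one in a finite dimensional division algebra. -/
theorem nb_inv {C : Type} [DivisionRing C] [Algebra k C] [FiniteDimensional k C] :
    Tendsto (fun x : C => x⁻¹) (nb k C) (nb k C) := by
  let tA : TopologicalSpace C := moduleTopology k C
  have hA : IsModuleTopology k C := ⟨rfl⟩
  have hAr : IsTopologicalRing C := IsModuleTopology.isTopologicalRing k C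
  let b := finBasis k C
  let M : C → Matrix (Fin (finrank k C)) (Fin (finrank k C)) k := fun x =>
    Algebra.leftMulMatrix b x
  have hM : Continuous M := by
    refine continuous_matrix fun i j => ?_
    exact IsModuleTopology.continuous_of_linearMap
      ((Matrix.entryLinearMap k k i j).comp (Algebra.leftMulMatrix b).toLinearMap)
  -- the inverse of `x` is read from the inverse matrix applied to one
  let r : (Fin (finrank k C) → k) →ₗ[k] C := (b.equivFun.symm : _ →ₗ[k] C)
  have hr : Continuous r := IsModuleTopology.continuous_of_linearMap r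
  let G : C → C := fun x => r (((M x).det)⁻¹ • ((M x).adjugate.mulVec (b.repr 1)))
  have hdet : Tendsto (fun x => (M x).det) (𝓝 (1 : C)) (𝓝 1) := by
    have h2 := (hM.matrix_det).tendsto 1
    have h3 : M 1 = 1 := map_one _
    rwa [h3, Matrix.det_one] at h2
  have hG : Tendsto G (𝓝 1) (𝓝 (G 1)) := by
    refine (hr.tendsto _).comp ?_
    refine Tendsto.smul ?_ ?_
    · have h3 : M 1 = 1 := map_one _
      rw [h3, Matrix.det_one]
      exact hdet.inv₀ one_ne_zero
    · exact ((hM.matrix_adjugate).matrix_mulVec continuous_const).tendsto 1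
  have hGi : ∀ x : C, (M x).det ≠ 0 → G x = x⁻¹ := by
    intro x hx
    have hx0 : x ≠ 0 := by
      rintro rfl
      apply hx
      change (Algebra.leftMulMatrix b (0 : C)).det = 0
      rw [map_zero]
      have : Nonempty (Fin (finrank k C)) := ⟨⟨0, finrank_pos⟩⟩
      exact Matrix.det_zero
    have h1 : (M x).mulVec (b.repr x⁻¹) = b.repr 1 := by
      have h2 := Algebra.leftMulMatrix_mulVec_repr b x x⁻¹
      rw [mul_inv_cancel₀ hx0] at h2
      exact h2
    have h2 : (M x).adjugate.mulVec (b.repr 1) = (M x).det • (b.repr x⁻¹ : _ → k) := by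
      rw [← h1, Matrix.mulVec_mulVec, Matrix.adjugate_mul, Matrix.smul_mulVec, Matrix.one_mulVec]
    change r (((M x).det)⁻¹ • ((M x).adjugate.mulVec (b.repr 1))) = x⁻¹
    rw [h2, smul_smul, inv_mul_cancel₀ hx, one_smul]
    exact b.equivFun.symm_apply_apply x⁻¹
  have h1 : G 1 = 1 := by
    rw [hGi 1 (by
      change (Algebra.leftMulMatrix b (1 : C)).det ≠ 0
      rw [map_one, Matrix.det_one]
      exact one_ne_zero), inv_one]
  rw [h1] at hG
  have h2 : ∀ᶠ x in 𝓝 (1 : C), G x = x⁻¹ := by
    have h3 : ∀ᶠ x in 𝓝 (1 : C), (M x).det ≠ 0 := hdet.eventually_ne one_ne_zero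
    exact h3.mono fun x hx => hGi x hx
  exact hG.congr' h2

end field

/-! ### The frame of Wang's theorem near one -/

section frame

variable (k : Type) [Field k] [TopologicalSpace k] {E : Type} [AddCommGroup E]

/-- A homomorphism near one. -/
def Good {C : Type} [Ring C] [Algebra k C] (F : C → E) : Prop :=
  ∀ᶠ p in nb k C ×ˢ nb k C, F (p.1 * p.2) = F p.1 + F p.2

/-- Every homomorphism near one is invariant near one under conjugation by a fixed unit. -/
def ConjP (k : Type) [Field k] [TopologicalSpace k] (E : Type) [AddCommGroup E] : Prop :=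
  ∀ (C : Type) [DivisionRing C] [Algebra k C] [FiniteDimensional k C] (F : C → E), Good k F →
    ∀ g : C, g ≠ 0 → ∀ᶠ x in nb k C, F (g * x * g⁻¹) = F x

/-- The same for matrices over a division algebra. -/
def ConjM (k : Type) [Field k] [TopologicalSpace k] (E : Type) [AddCommGroup E] : Prop :=
  ∀ (C : Type) [DivisionRing C] [Algebra k C] [FiniteDimensional k C] (r : ℕ)
    (F : Matrix (Fin r) (Fin r) C → E), Good k F → ∀ g g' : Matrix (Fin r) (Fin r) C,
    g * g' = 1 → g' * g = 1 → ∀ᶠ x in nb k (Matrix (Fin r) (Fin r) C), F (g * x * g') = F x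

/-- Base change: a homomorphism near one on `C` gives one on `E' ⊗ C`. -/
def BaseP (k : Type) [Field k] [TopologicalSpace k] (E : Type) [AddCommGroup E] : Prop :=
  ∀ (Z : Type) [Field Z] [Algebra k Z] [FiniteDimensional k Z] (C : Type) [DivisionRing C]
    [Algebra Z C] [Algebra k C] [IsScalarTower k Z C] [FiniteDimensional Z C] (Z' : Type)
    [Field Z'] [Algebra Z Z'] [Algebra k Z'] [IsScalarTower k Z Z'] [FiniteDimensional Z Z']
    (F : C → E), Good k F → ∃ F1 : Z' ⊗[Z] C → E, Good k F1 ∧
      ∀ᶠ x in nb k C, F1 (1 ⊗ₜ[Z] x) = finrank Z Z' • F x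

/-- **Reduced norms near one**: in odd degree every element of the centre close to one is the
reduced norm of an element close to one. -/
def NSurNear (k : Type) [Field k] [TopologicalSpace k] : Prop :=
  ∀ (Z : Type) [Field Z] [Algebra k Z] [FiniteDimensional k Z] (C : Type) [DivisionRing C]
    [Algebra Z C] [Algebra k C] [IsScalarTower k Z C] [FiniteDimensional Z C]
    [Algebra.IsCentral Z C] (d : ℕ), Odd d → finrank Z C = d ^ 2 → ∀ V ∈ nb k C,
      ∀ᶠ b in nb k Z, ∃ t ∈ V, HasNrd Z d t b

/-- **The root trick**: for an element `t` of reduced norm one close to one some power `t ^ N`,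
`N` prime to `M`, is, up to elements of its field arbitrarily close to one, the `M`-th power of an
element of reduced norm one close to one.  (Characteristic zero: `N = 1` and `y` close to the
`M`-th root of `t`.  Characteristic `q` prime to `M`: `N` a power of `q` and `y = 1`.) -/
def RootP (k : Type) [Field k] [TopologicalSpace k] (M : ℕ) : Prop :=
  ∀ (Z : Type) [Field Z] [Algebra k Z] [FiniteDimensional k Z] (C : Type) [DivisionRing C]
    [Algebra Z C] [Algebra k C] [IsScalarTower k Z C] [FiniteDimensional Z C]
    [Algebra.IsCentral Z C] (d : ℕ), finrank Z C = d ^ 2 → (d : Z) ≠ 0 → ∀ V ∈ nb k C,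
      ∀ᶠ t in nb k C, HasNrd Z d t 1 → ∀ O ∈ nb k C, ∃ N : ℕ, ∃ y ∈ Algebra.adjoin Z {t},
        Nat.Coprime N M ∧ (∀ i ≤ N, t ^ i ∈ V) ∧ (∀ i ≤ M, y ^ i ∈ V) ∧ HasNrd Z d y 1 ∧
        t ^ N * (y ^ M)⁻¹ ∈ O

theorem Good.comp {k : Type} [Field k] [TopologicalSpace k] [IsTopologicalRing k]
    {C C' : Type} [Ring C] [Algebra k C] [Ring C'] [Algebra k C'] {F : C → E} (hF : Good k F)
    (φ : C' →ₐ[k] C) : Good k fun x => F (φ x) := by
  have h1 := (nb_alg k φ).prodMap (nb_alg k φ)
  have h2 := h1.eventually hF
  refine h2.mono fun p hp => ?_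
  change F (φ (p.1 * p.2)) = _
  rw [map_mul]
  exact hp

end frame

end Vale.Agent.P011.H677.GW
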