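import Vale.Agent.P011.H775.Odd.TopMod
import Vale.Agent.P011.H677.GW.Frame

/-!
The root trick in characteristic `q` prime to the exponent: Frobenius powers tend to one.
-/

set_option linter.style.haveILetI false
set_option linter.unusedSectionVars false

open Module Filter Topology

namespace Vale.Agent.P011.H677.GW

open Vale.Agent.P011.H775.Top
open Vale.Agent.P011.W (HasNrd)

section

variable {k D : Type} [Field k] [DivisionRing D] [Algebra k D] {ι : Type} {κ : Type*} [Fintype ι]
  [Fintype κ] [Nonempty ι] (B : Basis κ k D) (a : ι → AbsoluteValue k ℝ)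

/-- The neighbourhoods of one in the size `sz`. -/
theorem mem_nb_iff {V : Set D} : (letI := topk a; V ∈ nb k D) ↔
    ∃ ε : ℝ, 0 < ε ∧ ∀ x, sz B a (x - 1) < ε → x ∈ V := by
  have h : (letI := topk a; nb k D) = @nhds D (topD B a) 1 := nhds_moduleTopology B a 1
  letI := topk a
  change V ∈ nb k D ↔ _
  rw [show nb k D = @nhds D (topD B a) 1 from h]
  exact (hasBasis B a 1).mem_iff

theorem sz_pow {C : ℝ} (hC : ∀ x y, sz B a (x * y) ≤ C * sz B a x * sz B a y)
    {z : D} (hz : C * sz B a z ≤ 1 / 2) (n : ℕ) :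
    sz B a (z ^ (n + 1)) ≤ (1 / 2) ^ n * sz B a z := by
  induction n with
  | zero => rw [zero_add, pow_one, pow_zero, one_mul]
  | succ n ih =>
    have h0 := sz_nonneg B a z
    have h1 := sz_nonneg B a (z ^ (n + 1))
    rw [pow_succ]
    refine (hC _ _).trans ?_
    calc C * sz B a (z ^ (n + 1)) * sz B a z = (C * sz B a z) * sz B a (z ^ (n + 1)) := by ring
      _ ≤ (1 / 2) * ((1 / 2) ^ n * sz B a z) := by gcongr
      _ = (1 / 2) ^ (n + 1) * sz B a z := by ring

theorem sz_pow_sub_one (ha : ∀ i, IsNonarchimedean (a i)) {C : ℝ}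
    (hC : ∀ x y, sz B a (x * y) ≤ C * sz B a x * sz B a y) {t : D}
    (ht : C * sz B a (t - 1) ≤ 1 / 2) (n : ℕ) : sz B a (t ^ n - 1) ≤ sz B a (t - 1) := by
  have h0 := sz_nonneg B a (t - 1)
  induction n with
  | zero => rwa [pow_zero, sub_self, sz_zero]
  | succ n ih =>
    have h1 := sz_nonneg B a (t ^ n - 1)
    have h2 : t ^ (n + 1) - 1 = (t ^ n - 1) * (t - 1) + ((t ^ n - 1) + (t - 1)) := by
      rw [pow_succ]
      noncomm_ring
    rw [h2]
    refine (sz_add_le_max B a ha _ _).trans (max_le ?_ ?_)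
    · refine (hC _ _).trans ?_
      calc C * sz B a (t ^ n - 1) * sz B a (t - 1)
          = (C * sz B a (t - 1)) * sz B a (t ^ n - 1) := by ring
        _ ≤ 1 * sz B a (t - 1) := by
          gcongr
          linarith
        _ = sz B a (t - 1) := one_mul _
    · exact (sz_add_le_max B a ha _ _).trans (max_le ih le_rfl)

end

/-- **The root trick in positive characteristic** (prime to the exponent). -/
theorem rootP_ff {k : Type} [Field k] {ι : Type} [Fintype ι] [Nonempty ι]
    (a : ι → AbsoluteValue k ℝ) (ha : ∀ i, IsNonarchimedean (a i)) (q : ℕ) [Fact q.Prime]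
    [CharP k q] (M : ℕ) (hM : (M : k) ≠ 0) : letI := topk a; RootP k M := by
  letI := topk a
  have hkt : IsTopologicalDivisionRing k := topk_isTopologicalDivisionRing a
  intro Z _ _ _ C _ _ _ _ _ _ d hC hd V hV
  have hfkC : FiniteDimensional k C := Module.Finite.trans Z C
  have hchC : CharP C q := charP_of_injective_algebraMap (algebraMap k C).injective q
  let B := finBasis k C
  obtain ⟨ε, hε, hVε⟩ := (mem_nb_iff B a).mp hV
  obtain ⟨K, hK0, hK⟩ := sz_mul B a
  have hcop : ∀ s, Nat.Coprime (q ^ s) M := by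
    intro s
    refine Nat.Coprime.pow_left s ?_
    rw [Nat.Prime.coprime_iff_not_dvd Fact.out]
    intro h
    exact hM ((CharP.cast_eq_zero_iff k q M).mpr h)
  have h1 : {t : C | sz B a (t - 1) < min ε (1 / (2 * K))} ∈ nb k C :=
    (mem_nb_iff B a).mpr ⟨min ε (1 / (2 * K)), lt_min hε (by positivity), fun x hx => hx⟩
  filter_upwards [h1] with t ht htn O hO
  obtain ⟨δ, hδ, hOδ⟩ := (mem_nb_iff B a).mp hO
  have ht1 : sz B a (t - 1) < ε := ht.trans_le (min_le_left _ _)
  have ht2 : K * sz B a (t - 1) ≤ 1 / 2 := by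
    have h3 : sz B a (t - 1) < 1 / (2 * K) := ht.trans_le (min_le_right _ _)
    have h4 : K * sz B a (t - 1) ≤ K * (1 / (2 * K)) := by gcongr
    refine h4.trans (le_of_eq ?_)
    field_simp
  -- the powers
  obtain ⟨n, hn⟩ : ∃ n : ℕ, (1 / 2 : ℝ) ^ n * sz B a (t - 1) < δ := by
    have h3 : Tendsto (fun n : ℕ => (1 / 2 : ℝ) ^ n * sz B a (t - 1)) atTop
        (𝓝 (0 * sz B a (t - 1))) :=
      (tendsto_pow_atTop_nhds_zero_of_lt_one (by norm_num) (by norm_num)).mul_const _
    rw [zero_mul] at h3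
    exact (h3.eventually_lt_const hδ).exists
  have hq : 1 < q := (Fact.out : q.Prime).one_lt
  have hnq : n + 1 ≤ q ^ (n + 1) := (Nat.lt_pow_self hq).le
  refine ⟨q ^ (n + 1), 1, Subalgebra.one_mem _, hcop _, fun i _ => ?_, fun i _ => ?_, ?_, ?_⟩
  · exact hVε _ ((sz_pow_sub_one B a ha hK ht2 i).trans_lt ht1)
  · rw [one_pow]
    exact one_mem k hV
  · exact HasNrd.one
  · rw [one_pow, inv_one, mul_one]
    refine hOδ _ ?_
    have h3 : t ^ q ^ (n + 1) - 1 = (t - 1) ^ q ^ (n + 1) := by
      have h4 := sub_pow_char_pow_of_commute (R := C) (p := q) (n := n + 1) (Commute.one_right t)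
      rw [one_pow] at h4
      exact h4.symm
    obtain ⟨m, hm⟩ : ∃ m, q ^ (n + 1) = m + 1 := ⟨q ^ (n + 1) - 1, by omega⟩
    rw [h3, hm]
    refine (sz_pow B a hK ht2 m).trans_lt (lt_of_le_of_lt ?_ hn)
    have h5 := sz_nonneg B a (t - 1)
    have h6 : n ≤ m := by omega
    exact mul_le_mul_of_nonneg_right
      (pow_le_pow_of_le_one (by norm_num) (by norm_num) h6) h5

end Vale.Agent.P011.H677.GW
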