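import Vale.Agent.P011.H677.GW.Step

/-!
Wang's theorem near one in prime power degree.
-/

set_option linter.unusedSectionVars false
set_option linter.unusedSimpArgs false

open Module Filter Topology TensorProduct Matrix

namespace Vale.Agent.P011.H677.GW

open Vale.Agent.P011.W (HasNrd deg_pos exists_maxfield)
open Vale.Agent.P011S (exists_split)
open Vale.Agent.P011.H505.Wang (hasNrd_norm exists_cyclic exists_coprime' one_of_deg_one)

section

variable (k : Type) [Field k] [TopologicalSpace k] [IsTopologicalDivisionRing k] [T2Space k]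
  {A : Type} [AddCommGroup A]

omit [IsTopologicalDivisionRing k] [T2Space k] in
theorem Good.exists_set {C : Type} [Ring C] [Algebra k C] {F : C → A} (hF : Good k F) :
    ∃ V ∈ nb k C, ∀ x ∈ V, ∀ y ∈ V, F (x * y) = F x + F y := by
  obtain ⟨V, hV, h1⟩ := Filter.mem_prod_self_iff.mp hF
  exact ⟨V, hV, fun x hx y hy => h1 (Set.mk_mem_prod hx hy)⟩

omit [T2Space k] in
theorem Good.one {C : Type} [Ring C] [Algebra k C] {F : C → A} (hF : Good k F) : F 1 = 0 := by
  obtain ⟨V, hV, h1⟩ := hF.exists_set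
  have h2 := h1 1 (one_mem k hV) 1 (one_mem k hV)
  rw [mul_one] at h2
  exact left_eq_add.mp h2

theorem pow_of_set {C : Type} [Ring C] {F : C → A} {V : Set C}
    (hV : ∀ x ∈ V, ∀ y ∈ V, F (x * y) = F x + F y) (h1 : F 1 = 0) {t : C} {N : ℕ}
    (ht : ∀ i ≤ N, t ^ i ∈ V) : F (t ^ N) = N • F t := by
  have h2 : ∀ i ≤ N, F (t ^ i) = i • F t := by
    intro i
    induction i with
    | zero => intro _; rw [pow_zero, h1, zero_smul]
    | succ i ih =>
      intro hi
      have h3 := ht 1 (by omega)
      rw [pow_one] at h3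
      rw [pow_succ, hV _ (ht i (by omega)) _ h3, ih (by omega), add_smul, one_smul]
  exact h2 N le_rfl

/-- **The root trick**: one maximal subfield at a time. -/
theorem root_near {M m' : ℕ} (hMA : ∀ a : A, M • a = 0) (hroot : RootP k M) [Infinite k]
    {Z C : Type} [Field Z] [Algebra k Z] [FiniteDimensional k Z] [DivisionRing C] [Algebra Z C]
    [Algebra k C] [IsScalarTower k Z C] [FiniteDimensional Z C] [Algebra.IsCentral Z C] {d : ℕ}
    (hC : finrank Z C = d ^ 2) (hd : (d : Z) ≠ 0) {F : C → A} (hF : Good k F)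
    (hL : ∀ (L : Type) [Field L] [Algebra Z L] [FiniteDimensional Z L] [Algebra k L]
      [IsScalarTower k Z L] (j : L →ₐ[Z] C), finrank Z L = d →
      ∀ᶠ u in nb k L, Algebra.norm Z u = 1 → m' • F (j u) = 0) :
    ∀ᶠ x in nb k C, HasNrd Z d x 1 → m' • F x = 0 := by
  have hiZ : Infinite Z := Infinite.of_injective _ (algebraMap k Z).injective
  obtain ⟨V, hV, hVF⟩ := hF.exists_set
  have hF1 : F 1 = 0 := hF.one
  filter_upwards [hroot Z C d hC hd V hV] with t ht htn
  obtain ⟨L, _, _, _, j, u, hLd, hju⟩ := exists_maxfield hC t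
  let _ : Algebra k L := Algebra.compHom L (algebraMap k Z)
  have hkZL : IsScalarTower k Z L := IsScalarTower.of_algebraMap_eq fun x => rfl
  have h1 := hL L j hLd
  obtain ⟨W, hW, hWj⟩ := nb_comap k (j.restrictScalars k).toLinearMap
    (map_one (j.restrictScalars k)) (j.restrictScalars k).toRingHom.injective h1
  obtain ⟨N, y, hy, hNM, htV, hyV, hyn, hO⟩ := ht htn (W ∩ V) (inter_mem hW hV)
  -- `y` lies in the field
  obtain ⟨y', rfl⟩ : ∃ y', j y' = y := by
    have h2 : Algebra.adjoin Z {t} ≤ j.range := by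
      rw [Algebra.adjoin_le_iff]
      rintro _ rfl
      exact ⟨u, hju⟩
    exact h2 hy
  have hnu : Algebra.norm Z u = 1 := by
    have h2 := hasNrd_norm hC hLd j u
    rw [hju] at h2
    exact HasNrd.unique hC h2 htn
  have hny : Algebra.norm Z y' = 1 := HasNrd.unique hC (hasNrd_norm hC hLd j y') hyn
  have h3 : m' • F (j (u ^ N * (y' ^ M)⁻¹)) = 0 := by
    refine hWj (u ^ N * (y' ^ M)⁻¹) ?_ ?_
    · change j (u ^ N * (y' ^ M)⁻¹) ∈ W
      rw [map_mul, map_pow, map_inv₀, map_pow, hju]
      exact hO.1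
    · have h6 : Algebra.norm Z (y'⁻¹) = 1 := by
        have h7 := map_mul (Algebra.norm Z) y' y'⁻¹
        have h8 : y' ≠ 0 := by
          rintro rfl
          rw [map_zero] at hyn
          exact hyn.ne_zero hC one_ne_zero rfl
        rw [mul_inv_cancel₀ h8, map_one, hny, one_mul] at h7
        exact h7.symm
      rw [← inv_pow, map_mul, map_pow, map_pow, hnu, h6, one_pow, one_pow, mul_one]
  have hy0 : j y' ≠ 0 := hyn.ne_zero hC one_ne_zero
  have h4 : F (t ^ N) = F (t ^ N * (j y' ^ M)⁻¹) + F (j y' ^ M) := by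
    rw [← hVF _ hO.2 _ (hyV M le_rfl), inv_mul_cancel_right₀ (pow_ne_zero M hy0)]
  rw [pow_of_set hVF hF1 htV, pow_of_set hVF hF1 hyV, hMA, add_zero] at h4
  have h5 : m' • F (t ^ N * (j y' ^ M)⁻¹) = 0 := by
    rw [map_mul, map_pow, map_inv₀, map_pow, hju] at h3
    exact h3
  have h6 : N • (m' • F t) = 0 := by rw [smul_comm, h4, h5]
  have h7 : M • (m' • F t) = 0 := hMA _
  have h8 : (Nat.gcd N M) • (m' • F t) = 0 := by
    have h9 := addOrderOf_dvd_of_nsmul_eq_zero h6
    have h10 := addOrderOf_dvd_of_nsmul_eq_zero h7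
    exact addOrderOf_dvd_iff_nsmul_eq_zero.mp (Nat.dvd_gcd h9 h10)
  rwa [hNM.gcd_eq_one, one_smul] at h8

/-- **Wang's theorem near one in prime power degree.** -/
theorem sk1_near (hConj : ConjP k A) (hBase : BaseP k A) (hNS : NSurNear k) [Infinite k]
    {M m' a p : ℕ} (hMA : ∀ x : A, M • x = 0) (hMk : (M : k) ≠ 0) (hroot : RootP k M)
    (hp : p.Prime) (hM : M = p ^ a * m') (e : ℕ) : ∀ (_ : Odd (p ^ e)) (Z C : Type) [Field Z]
    [Algebra k Z] [FiniteDimensional k Z] [DivisionRing C] [Algebra Z C] [Algebra k C]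
    [IsScalarTower k Z C] [FiniteDimensional Z C] [Algebra.IsCentral Z C]
    (_ : finrank Z C = (p ^ e) ^ 2) (F : C → A) (_ : Good k F),
    ∀ᶠ x in nb k C, HasNrd Z (p ^ e) x 1 → m' • F x = 0 := by
  rcases Nat.eq_zero_or_pos a with ha | ha
  · subst ha
    rw [pow_zero, one_mul] at hM
    subst hM
    intro _ Z C _ _ _ _ _ _ _ _ _ _ F _
    exact Filter.Eventually.of_forall fun x _ => hMA _
  have hpk : (p : k) ≠ 0 := by
    intro h
    apply hMk
    obtain ⟨b, rfl⟩ : ∃ b, a = b + 1 := ⟨a - 1, by omega⟩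
    rw [hM, Nat.cast_mul, Nat.cast_pow, h, pow_succ, mul_zero, zero_mul]
  induction e with
  | zero =>
    intro _ Z C _ _ _ _ _ _ _ _ _ hC F hF
    refine Filter.Eventually.of_forall fun x hx => ?_
    rw [pow_zero] at hC hx
    obtain ⟨f⟩ := exists_split (K := Z) (D := C) hC (AlgebraicClosure Z)
    have h1 : x = 1 := one_of_deg_one (by rw [hC, one_pow]) f (by rw [hx, map_one])
    rw [h1, hF.one, smul_zero]
  | succ e ih =>
    intro hodd Z C _ _ _ _ _ _ _ _ _ hC F hF
    have hpo : Odd p := by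
      rw [pow_succ] at hodd
      exact (Nat.odd_mul.mp hodd).2
    have hpZ : (p : Z) ≠ 0 := by
      intro h
      apply hpk
      apply (algebraMap k Z).injective
      rw [map_natCast, h, map_zero]
    have hdZ : ((p ^ (e + 1) : ℕ) : Z) ≠ 0 := by
      rw [Nat.cast_pow]
      exact pow_ne_zero _ hpZ
    refine root_near k hMA hroot hC hdZ hF ?_
    intro L _ _ _ _ _ j0 hL
    have hsep : Algebra.IsSeparable Z L := by
      by_contra hcon
      have h1 := LinearMap.congr_fun (Algebra.trace_eq_zero_of_not_isSeparable hcon) (1 : L)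
      rw [LinearMap.zero_apply, ← map_one (algebraMap Z L), Algebra.trace_algebraMap, hL,
        nsmul_eq_mul, mul_one] at h1
      exact hdZ h1
    obtain ⟨N, _, _, _, _, _, E, L', Zc, hcop, hL', hmem, hZL, hZg, hZ, hlift⟩ :=
      exists_cyclic (F := Z) (L := L) hp hL
    let _ : Algebra k N := Algebra.compHom N (algebraMap k Z)
    have hkZN : IsScalarTower k Z N := IsScalarTower.of_algebraMap_eq fun x => rfl
    have hkLN : IsScalarTower k L N := IsScalarTower.of_algebraMap_eq fun x => by
      rw [IsScalarTower.algebraMap_apply k Z L, ← IsScalarTower.algebraMap_apply Z L N]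
      rfl
    have hkZE : IsScalarTower k Z E := IsScalarTower.of_algebraMap_eq fun x => rfl
    have hkEN : IsScalarTower k E N := IsScalarTower.of_algebraMap_eq fun x => rfl
    have hkEL : IsScalarTower k E L' := IsScalarTower.of_algebraMap_eq fun x => rfl
    have hkEZ : IsScalarTower k E Zc := IsScalarTower.of_algebraMap_eq fun x => rfl
    have hfE : FiniteDimensional k E := Module.Finite.trans Z E
    have hfZc : FiniteDimensional k Zc := Module.Finite.trans E Zc
    have hiZ : Infinite Z := Infinite.of_injective _ (algebraMap k Z).injective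
    have hiE : Infinite E := Infinite.of_injective _ (algebraMap k E).injective
    obtain ⟨D', _, _, _, _, ψ, hD'⟩ := exists_coprime' hp hC E hcop
    let _ : Algebra k D' := Algebra.compHom D' (algebraMap k E)
    have hkED : IsScalarTower k E D' := IsScalarTower.of_algebraMap_eq fun x => rfl
    let ι : C →+* D' := (ψ : E ⊗[Z] C →+* D').comp
      (Algebra.TensorProduct.includeRight : C →ₐ[Z] E ⊗[Z] C).toRingHom
    have hι : ∀ x : C, ι x = ψ (1 ⊗ₜ x) := fun x => rfl
    have hιF : ∀ x : Z, ι (algebraMap Z C x) = algebraMap E D' (algebraMap Z E x) := by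
      intro x
      have h2 : (1 : E) ⊗ₜ[Z] (algebraMap Z C x) = (algebraMap Z E x) ⊗ₜ[Z] (1 : C) := by
        rw [Algebra.algebraMap_eq_smul_one, Algebra.algebraMap_eq_smul_one,
          TensorProduct.tmul_smul, TensorProduct.smul_tmul']
      rw [hι, ← ψ.commutes, Algebra.TensorProduct.algebraMap_apply, h2]
      rfl
    have hιn : ∀ (x : C) (y : Z), HasNrd Z (p ^ (e + 1)) x y →
        HasNrd E (p ^ (e + 1)) (ι x) (algebraMap Z E y) := by
      intro x y hxy Ω _ _ f
      let _ : Algebra Z Ω := ((algebraMap E Ω).comp (algebraMap Z E)).toAlgebra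
      let f' : C →ₐ[Z] Matrix (Fin (p ^ (e + 1))) (Fin (p ^ (e + 1))) Ω :=
        { (f : D' →+* Matrix (Fin (p ^ (e + 1))) (Fin (p ^ (e + 1))) Ω).comp ι with
          commutes' := fun c => by
            change f (ι (algebraMap Z C c)) = _
            rw [hιF, f.commutes]
            rfl }
      exact hxy Ω f'
    obtain ⟨F1, hF1, hF1ι⟩ := hBase Z C E F hF
    let ψk : D' →ₐ[k] E ⊗[Z] C := (ψ.symm : D' →ₐ[E] E ⊗[Z] C).restrictScalars k
    have hF2 : Good k fun x => F1 (ψk x) := hF1.comp ψk
    obtain ⟨j, hj⟩ := hlift D' (ι.comp (j0 : L →+* C)) (fun x => by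
      rw [RingHom.comp_apply]
      change ι (j0 (algebraMap Z L x)) = _
      rw [j0.commutes, hιF])
    let _ : Algebra Zc L' := (IntermediateField.inclusion hZL).toRingHom.toAlgebra
    have : IsScalarTower E Zc L' := IsScalarTower.of_algebraMap_eq fun x =>
      ((IntermediateField.inclusion hZL).commutes x).symm
    have h1 := step_near k hConj hNS hp hpo (m' := m') hD' hL' j hZ
      (fun C' _ _ _ _ _ _ hC' F' hF' => ih hpo.pow Zc C' hC' F' hF') (fun x => F1 (ψk x)) hF2
    -- back to `L`
    let i : L →ₐ[k] L' :=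
      { toFun := fun l => ⟨algebraMap L N l, hmem l⟩
        map_one' := Subtype.ext (map_one _)
        map_mul' := fun x y => Subtype.ext (map_mul _ _ _)
        map_zero' := Subtype.ext (map_zero _)
        map_add' := fun x y => Subtype.ext (map_add _ _ _)
        commutes' := fun x => Subtype.ext (by
          change algebraMap L N (algebraMap k L x) = algebraMap k N x
          rw [← IsScalarTower.algebraMap_apply k L N]) }
    have hi : ∀ l, j (i l) = ι (j0 l) := fun l => hj l (hmem l)
    have h2 := (nb_alg k i).eventually h1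
    have h3 := (nb_alg k (j0.restrictScalars k)).eventually hF1ι
    filter_upwards [h2, h3] with u h4 h5 hu
    have h6 : Algebra.norm E (i u) = 1 := by
      have h7 := hasNrd_norm hD' hL' j (i u)
      rw [hi] at h7
      have h8 := hιn _ _ (hasNrd_norm hC hL j0 u)
      rw [hu, map_one] at h8
      exact HasNrd.unique hD' h7 h8
    have h9 := h4 h6
    have h10 : ψk (j (i u)) = 1 ⊗ₜ (j0 u) := by
      rw [hi, hι]
      exact ψ.symm_apply_apply _
    have h11 : F1 (1 ⊗ₜ (j0 u)) = finrank Z E • F (j0 u) := h5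
    change m' • F1 (ψk (j (i u))) = 0 at h9
    rw [h10, h11] at h9
    have h12 : finrank Z E • (m' • F (j0 u)) = 0 := by rw [smul_comm]; exact h9
    have h13 : p ^ a • (m' • F (j0 u)) = 0 := by rw [smul_smul, ← hM]; exact hMA _
    have h14 : (Nat.gcd (finrank Z E) (p ^ a)) • (m' • F (j0 u)) = 0 :=
      addOrderOf_dvd_iff_nsmul_eq_zero.mp (Nat.dvd_gcd
        (addOrderOf_dvd_of_nsmul_eq_zero h12) (addOrderOf_dvd_of_nsmul_eq_zero h13))
    rwa [(Nat.Coprime.pow_right a hcop).gcd_eq_one, one_smul] at h14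

end

end Vale.Agent.P011.H677.GW
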